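import Vale.Agent.P092.RC.Blocks
import Vale.Agent.P092.H76.NoInvP
import Vale.Agent.P092.H103.CA1
import Vale.Agent.P092.H828.Par
import Vale.Agent.P092.TX.H45.Hsx

/-!
P092, Team C, all amplifications: copy for the picture `PicX` (existential form of `inv`).
P092 (helper828), team C, block [C-KER]: no element outside the radical acts trivially on the
residue algebra.
-/

set_option linter.all false

open scoped InnerProductSpace ENNReal Pointwise LinearAlgebra.Projectivization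
open Filter Topology ContinuousLinearMap MeasureTheory TopologicalSpace

namespace Vale.Agent.P092.TX.H828.CKer

open Vale.Agent.P092.H828

open Vale.Agent.P092.SR (CO COS)
open Vale.Agent.P092.H820 (Cpv)
open Vale.Agent.P092.RC

section abs

variable {G Γ Y G₀ K : Type} [Group G] [TopologicalSpace G] [Group Γ] [TopologicalSpace Y]
  [MulAction G Y] [ContinuousConstSMul G Y] [Group G₀] [TopologicalSpace G₀]
  [NormedAddCommGroup K] [InnerProductSpace ℂ K] [CompleteSpace K]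
  {π : G →* (K →L[ℂ] K)} {lam : Γ →* (K →L[ℂ] K)} {W W' : Set (K →L[ℂ] K)} {Ω : K} {q : Γ →* G}
  {c : G → Y → G₀} {y₀ : Y} {E : Clopens Y → (K →L[ℂ] K)}

/-- smooth elements of the residue algebra -/
def SRes (π : G →* (K →L[ℂ] K)) (lam : Γ →* (K →L[ℂ] K)) (W' : Set (K →L[ℂ] K)) (q : Γ →* G)
    (c : G → Y → G₀) (y₀ : Y) (E : Clopens Y → (K →L[ℂ] K)) (b : G₀ → (K →L[ℂ] K)) : Prop :=
  ∃ U : Subgroup G₀, COS U ∧ Res π lam W' q c y₀ E U b ∧
    ∃ V : Subgroup G, IsOpen (V : Set G) ∧ ∀ p ∈ V, p • y₀ = y₀ → ∀ h, π p * b h = b h * π p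

theorem pi_inv (p : G) : π p * π p⁻¹ = 1 := by rw [← map_mul, mul_inv_cancel, map_one]

theorem inv_pi (p : G) : π p⁻¹ * π p = 1 := by rw [← map_mul, inv_mul_cancel, map_one]

theorem comm_inv {p : G} {T : K →L[ℂ] K} (h : π p * T = T * π p) : π p⁻¹ * T = T * π p⁻¹ := by
  calc π p⁻¹ * T = π p⁻¹ * T * (π p * π p⁻¹) := by rw [pi_inv, mul_one]
    _ = π p⁻¹ * (T * π p) * π p⁻¹ := by simp only [mul_assoc]
    _ = π p⁻¹ * (π p * T) * π p⁻¹ := by rw [h]
    _ = (π p⁻¹ * π p) * T * π p⁻¹ := by simp only [mul_assoc]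
    _ = T * π p⁻¹ := by rw [inv_pi, one_mul]

theorem cc_one (hG : Geo c y₀) (y : Y) : c 1 y = 1 := by
  have h := hG.mul 1 1 y
  rw [mul_one, one_smul] at h
  exact left_eq_mul.mp h

theorem stab_inv {p : G} (hp : p • y₀ = y₀) : p⁻¹ • y₀ = y₀ := by
  rw [inv_smul_eq_iff, hp]

theorem rad_conj (hG : Geo c y₀) {p r : G} (hp : p • y₀ = y₀) (hr : r • y₀ = y₀)
    (hr1 : c r y₀ = 1) : c (p * r * p⁻¹) y₀ = 1 := by
  have h1 : p⁻¹ • y₀ = y₀ := stab_inv hp
  have h2 := hG.mul p p⁻¹ y₀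
  rw [mul_inv_cancel, cc_one hG, h1] at h2
  rw [hG.mul, h1, hG.mul, hr, hr1, mul_one, ← h2]

/-- Conjugates of smooth residue elements. -/
theorem sres_conj (hG : Geo c y₀) (hP : PicX π lam W Ω) (hL : Lim π lam W q y₀ E)
    (hX : Ext π lam W W' y₀ E) {b : G₀ → (K →L[ℂ] K)} (hb : SRes π lam W' q c y₀ E b) {p : G}
    (hp : p • y₀ = y₀) : SRes π lam W' q c y₀ E (fun h => π p⁻¹ * b h * π p) := by
  obtain ⟨U, hU, hR, V, hV, hVb⟩ := hb
  have hp' : p⁻¹ • y₀ = y₀ := stab_inv hp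
  refine ⟨U, hU, ?_, ?_⟩
  · refine ⟨?_, ?_, ?_, ?_, ?_, ?_⟩
    · obtain ⟨B, hB⟩ := hR.bdd
      refine ⟨‖π p⁻¹‖ * B * ‖π p‖, fun h => ?_⟩
      change ‖π p⁻¹ * b h * π p‖ ≤ _
      refine (norm_mul_le _ _).trans (mul_le_mul_of_nonneg_right ?_ (norm_nonneg _))
      exact (norm_mul_le _ _).trans (mul_le_mul_of_nonneg_left (hB h) (norm_nonneg _))
    · intro h u hu
      change π p⁻¹ * b (h * u) * π p = _
      rw [hR.rinv h u hu]
    · intro h w hw
      have h1 := hR.cm h _ (hX.par w hw p hp)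
      calc π p⁻¹ * b h * π p * w = π p⁻¹ * b h * π p * w * (π p⁻¹ * π p) := by
            rw [inv_pi, mul_one]
        _ = π p⁻¹ * (b h * (π p * w * π p⁻¹)) * π p := by simp only [mul_assoc]
        _ = π p⁻¹ * (π p * w * π p⁻¹ * b h) * π p := by rw [h1]
        _ = (π p⁻¹ * π p) * w * (π p⁻¹ * b h * π p) := by simp only [mul_assoc]
        _ = w * (π p⁻¹ * b h * π p) := by rw [inv_pi, one_mul]
    · intro r hr hr1 h
      have h1 : (p * r * p⁻¹) • y₀ = y₀ := by rw [mul_smul, mul_smul, hp', hr, hp]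
      have h2 := hR.rad (p * r * p⁻¹) h1 (rad_conj hG hp hr hr1) h
      have e1 : π r * π p⁻¹ = π p⁻¹ * π (p * r * p⁻¹) := by
        rw [← map_mul, ← map_mul]
        congr 1
        group
      have e2 : π (p * r * p⁻¹) * π p = π p * π r := by
        rw [← map_mul, ← map_mul]
        congr 1
        group
      calc π r * (π p⁻¹ * b h * π p) = π r * π p⁻¹ * b h * π p := by simp only [mul_assoc]
        _ = π p⁻¹ * (π (p * r * p⁻¹) * b h) * π p := by rw [e1]; simp only [mul_assoc]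
        _ = π p⁻¹ * b h * (π (p * r * p⁻¹) * π p) := by rw [h2]; simp only [mul_assoc]
        _ = π p⁻¹ * b h * π p * π r := by rw [e2]; simp only [mul_assoc]
    · intro h C
      have h1 := hL.par p hp C
      have h2 := comm_inv h1
      calc π p⁻¹ * b h * π p * E C = π p⁻¹ * b h * (π p * E C) := by simp only [mul_assoc]
        _ = π p⁻¹ * (b h * E C) * π p := by rw [h1]; simp only [mul_assoc]
        _ = π p⁻¹ * E C * b h * π p := by rw [hR.cE]; simp only [mul_assoc]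
        _ = E C * (π p⁻¹ * b h * π p) := by rw [h2]; simp only [mul_assoc]
    · intro γ h h' C hC
      have h1 := hR.eqv γ h h' C hC
      have h2 := hL.par p hp C
      have h3 := hL.par p hp (sm (q γ) C)
      have h4 : lam γ * π p⁻¹ = π p⁻¹ * lam γ := (hP.comm _ _).symm
      have h5 : π p * lam γ⁻¹ = lam γ⁻¹ * π p := hP.comm _ _
      calc lam γ * (π p⁻¹ * b h * π p * E C) * lam γ⁻¹
          = (lam γ * π p⁻¹) * b h * (π p * E C) * lam γ⁻¹ := by simp only [mul_assoc]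
        _ = π p⁻¹ * lam γ * b h * E C * (π p * lam γ⁻¹) := by
            rw [h4, h2]; simp only [mul_assoc]
        _ = π p⁻¹ * (lam γ * (b h * E C) * lam γ⁻¹) * π p := by
            rw [h5]; simp only [mul_assoc]
        _ = π p⁻¹ * b h' * (E (sm (q γ) C) * π p) := by rw [h1]; simp only [mul_assoc]
        _ = π p⁻¹ * b h' * π p * E (sm (q γ) C) := by rw [← h3]; simp only [mul_assoc]
  · haveI := hG.tg
    refine ⟨V.comap (MulAut.conj p).toMonoidHom, ?_, ?_⟩
    · have h1 : Continuous fun s : G => p * s * p⁻¹ := by fun_prop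
      exact hV.preimage h1
    · intro s hs hs1 h
      have hs' : p * s * p⁻¹ ∈ V := hs
      have h1 : (p * s * p⁻¹) • y₀ = y₀ := by rw [mul_smul, mul_smul, hp', hs1, hp]
      have h2 := hVb _ hs' h1 h
      have e1 : π s * π p⁻¹ = π p⁻¹ * π (p * s * p⁻¹) := by
        rw [← map_mul, ← map_mul]
        congr 1
        group
      have e2 : π (p * s * p⁻¹) * π p = π p * π s := by
        rw [← map_mul, ← map_mul]
        congr 1
        group
      calc π s * (π p⁻¹ * b h * π p) = π s * π p⁻¹ * b h * π p := by simp only [mul_assoc]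
        _ = π p⁻¹ * (π (p * s * p⁻¹) * b h) * π p := by rw [e1]; simp only [mul_assoc]
        _ = π p⁻¹ * b h * (π (p * s * p⁻¹) * π p) := by rw [h2]; simp only [mul_assoc]
        _ = π p⁻¹ * b h * π p * π s := by rw [e2]; simp only [mul_assoc]

/-- The stabiliser elements acting trivially on the smooth part of the residue algebra. -/
def kerN (π : G →* (K →L[ℂ] K)) (lam : Γ →* (K →L[ℂ] K)) (W' : Set (K →L[ℂ] K)) (q : Γ →* G)
    (c : G → Y → G₀) (y₀ : Y) (E : Clopens Y → (K →L[ℂ] K)) : Subgroup G where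
  carrier := {p | p • y₀ = y₀ ∧ ∀ b, SRes π lam W' q c y₀ E b → ∀ h, π p * b h = b h * π p}
  one_mem' := ⟨one_smul _ _, fun b hb h => by rw [map_one, one_mul, mul_one]⟩
  mul_mem' {x y} hx hy := ⟨by rw [mul_smul, hy.1, hx.1], fun b hb h => by
    rw [map_mul, mul_assoc, hy.2 b hb h, ← mul_assoc, hx.2 b hb h, mul_assoc]⟩
  inv_mem' {x} hx := ⟨stab_inv hx.1, fun b hb h => comm_inv (hx.2 b hb h)⟩

theorem mem_kerN {p : G} : p ∈ kerN π lam W' q c y₀ E ↔
    p • y₀ = y₀ ∧ ∀ b, SRes π lam W' q c y₀ E b → ∀ h, π p * b h = b h * π p := Iff.rfl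

theorem kerN_conj (hG : Geo c y₀) (hP : PicX π lam W Ω) (hL : Lim π lam W q y₀ E)
    (hX : Ext π lam W W' y₀ E) {p g : G} (hp : p • y₀ = y₀) (hg : g ∈ kerN π lam W' q c y₀ E) :
    p * g * p⁻¹ ∈ kerN π lam W' q c y₀ E := by
  rw [mem_kerN] at hg ⊢
  refine ⟨by rw [mul_smul, mul_smul, stab_inv hp, hg.1, hp], fun b hb h => ?_⟩
  have h1 : π g * (π p⁻¹ * b h * π p) = π p⁻¹ * b h * π p * π g :=
    hg.2 _ (sres_conj hG hP hL hX hb hp) h
  have h2 : π (p * g * p⁻¹) = π p * π g * π p⁻¹ := by rw [map_mul, map_mul]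
  rw [h2]
  calc π p * π g * π p⁻¹ * b h = π p * π g * π p⁻¹ * b h * (π p * π p⁻¹) := by
        rw [pi_inv, mul_one]
    _ = π p * (π g * (π p⁻¹ * b h * π p)) * π p⁻¹ := by simp only [mul_assoc]
    _ = (π p * π p⁻¹) * b h * (π p * π g * π p⁻¹) := by rw [h1]; simp only [mul_assoc]
    _ = b h * (π p * π g * π p⁻¹) := by rw [pi_inv, one_mul]

theorem rad_mem {r : G} (hr : r • y₀ = y₀) (hr1 : c r y₀ = 1) : r ∈ kerN π lam W' q c y₀ E :=
  ⟨hr, fun b hb h => by
    obtain ⟨U, hU, hR, -⟩ := hb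
    exact hR.rad r hr hr1 h⟩

/-! ### Moore sets -/

theorem moore_conj {S : Set G} (hS : Moore S) (u : G) : Moore {s : G | u * s * u⁻¹ ∈ S} := by
  intro F _ _ _ σ h1 h2 ξ hξ g
  have key : ∀ g, σ g (σ u ξ) = σ u ξ := by
    refine hS F σ h1 h2 (σ u ξ) fun t ht => ?_
    have h3 : σ (u⁻¹ * t * u) ξ = ξ := by
      refine hξ _ ?_
      change u * (u⁻¹ * t * u) * u⁻¹ ∈ S
      have e : u * (u⁻¹ * t * u) * u⁻¹ = t := by group
      rwa [e]
    have h4 : σ t (σ u ξ) = σ u (σ (u⁻¹ * t * u) ξ) := by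
      change (σ t * σ u) ξ = (σ u * σ (u⁻¹ * t * u)) ξ
      rw [← map_mul, ← map_mul]
      congr 2
      group
    rw [h4, h3]
  have h5 := key (u * g * u⁻¹)
  have h6 : σ (u * g * u⁻¹) (σ u ξ) = σ u (σ g ξ) := by
    change (σ (u * g * u⁻¹) * σ u) ξ = (σ u * σ g) ξ
    rw [← map_mul, ← map_mul]
    congr 2
    group
  rw [h6] at h5
  have h7 := congrArg (σ u⁻¹) h5
  have h8 : ∀ η, σ u⁻¹ (σ u η) = η := fun η => by
    change (σ u⁻¹ * σ u) η = η
    rw [← map_mul, inv_mul_cancel, map_one]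
    rfl
  rwa [h8, h8] at h7

theorem moore_mono {S S' : Set G} (hS : Moore S) (h : S ⊆ S') : Moore S' :=
  fun F _ _ _ σ h1 h2 ξ hξ => hS F σ h1 h2 ξ fun s hs => hξ s (h hs)

end abs

/-! ### The concrete geometry -/

section conc

open Matrix

variable {k : Type} [NontriviallyNormedField k] {m : ℕ}

theorem smul_e0 (g : GG k m) (i : Fin (m + 1)) :
    (g • (Pi.single 0 1 : Fin (m + 1) → k)) i = g.1 i 0 := by
  rw [Matrix.SpecialLinearGroup.smul_def, Matrix.smul_eq_mulVec]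
  simp

theorem smul_y0_iff (g : GG k m) :
    g • (y0 : YY k m) = y0 ↔ g ∈ Par.Par (k := k) (0 : Fin (m + 1)) := by
  rw [Par.mem_Par, y0, Projectivization.smul_mk, Projectivization.mk_eq_mk_iff']
  constructor
  · rintro ⟨a, ha⟩ i hi
    have h1 := congrFun ha i
    rw [smul_e0] at h1
    rw [← h1]
    simp [hi]
  · intro h
    refine ⟨g.1 0 0, ?_⟩
    funext i
    rw [smul_e0]
    by_cases hi : i = 0
    · rw [hi]; simp
    · rw [h i hi]
      simp [hi]

theorem rep_y0 : ∃ a : k, a ≠ 0 ∧ (y0 : YY k m).rep = fun i => if i = 0 then a else 0 := by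
  obtain ⟨a, ha⟩ := Projectivization.exists_smul_eq_mk_rep k (Pi.single 0 1 : Fin (m + 1) → k)
    (by
      intro h
      have := congrFun h 0
      simp at this)
  refine ⟨(a : k), a.ne_zero, ?_⟩
  have h1 : (y0 : YY k m).rep = a • (Pi.single 0 1 : Fin (m + 1) → k) := ha.symm
  rw [h1]
  funext i
  by_cases hi : i = 0
  · rw [hi, if_pos rfl]
    simp [Units.smul_def]
  · rw [if_neg hi]
    simp [Units.smul_def, hi]

theorem ix_y0 : ix (y0 : YY k m).rep = 0 := by
  obtain ⟨a, ha, hr⟩ := rep_y0 (k := k) (m := m)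
  have h1 : (Finset.univ.filter fun i => ∀ j, ‖(y0 : YY k m).rep j‖ ≤ ‖(y0 : YY k m).rep i‖) =
      {0} := by
    ext i
    rw [Finset.mem_filter, Finset.mem_singleton, hr]
    constructor
    · rintro ⟨-, h⟩
      by_contra hi
      have h2 := h 0
      simp only [if_true, if_neg hi, norm_zero] at h2
      exact ha (norm_le_zero_iff.1 h2)
    · rintro rfl
      refine ⟨Finset.mem_univ _, fun j => ?_⟩
      simp only [if_true]
      split_ifs
      · exact le_rfl
      · rw [norm_zero]; exact norm_nonneg _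
  rw [ix]
  have h2 : (Finset.univ.filter fun i =>
      ∀ j, ‖(y0 : YY k m).rep j‖ ≤ ‖(y0 : YY k m).rep i‖).Nonempty := by
    rw [h1]; exact Finset.singleton_nonempty _
  rw [dif_pos h2]
  have h3 := Finset.min'_mem _ h2
  have h4 := (Finset.ext_iff.1 h1 _).1 h3
  exact Finset.mem_singleton.1 h4

theorem sct_y0 : sct (y0 : YY k m) = 1 := by
  obtain ⟨a, ha, hr⟩ := rep_y0 (k := k) (m := m)
  ext i j
  rw [sct, Matrix.of_apply]
  refine Fin.cases ?_ (fun j => ?_) j
  · change nv (y0 : YY k m) i = _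
    rw [nv, ix_y0, hr, Matrix.one_apply]
    by_cases hi : i = 0
    · simp only [if_pos hi, if_true, div_self ha]
    · simp only [if_neg hi, zero_div]
  · change (if i = (ix (y0 : YY k m).rep).succAbove j then (1 : k) else 0) = _
    rw [ix_y0, Matrix.one_apply, Fin.zero_succAbove]

theorem cc_eq_one {g : GG k m} (hg : g ∈ Par.Par (k := k) (0 : Fin (m + 1))) {c : k}
    (hc : Par.blk 0 g.1 = c • (1 : Matrix {i : Fin (m + 1) // i ≠ 0}
      {i : Fin (m + 1) // i ≠ 0} k)) :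
    cc g (y0 : YY k m) = 1 := by
  have h1 : RC.blk g (y0 : YY k m) = c • (1 : Matrix (Fin m) (Fin m) k) := by
    rw [RC.blk, (smul_y0_iff g).2 hg, sct_y0, inv_one, one_mul, mul_one]
    ext i j
    have h2 := congrFun (congrFun hc ⟨i.succ, Fin.succ_ne_zero i⟩) ⟨j.succ, Fin.succ_ne_zero j⟩
    rw [Par.blk_apply] at h2
    rw [Matrix.submatrix_apply, h2, Matrix.smul_apply, Matrix.smul_apply, Matrix.one_apply,
      Matrix.one_apply]
    by_cases hij : i = j
    · rw [if_pos hij, if_pos (by rw [hij])]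
    · rw [if_neg hij, if_neg (fun h => hij (Fin.succ_injective _ (congrArg Subtype.val h)))]
  rw [cc]
  split_ifs with h
  · rw [QuotientGroup.eq_one_iff, Subgroup.mem_center_iff]
    intro x
    apply Units.ext
    rw [Units.val_mul, Units.val_mul, IsUnit.unit_spec, h1]
    rw [Matrix.mul_smul, Matrix.smul_mul, mul_one, one_mul]
  · rfl

theorem fix_e0_iff (s : GG k m) : s • (Pi.single 0 1 : Fin (m + 1) → k) = Pi.single 0 1 ↔
    ∀ i, s.1 i 0 = if i = 0 then 1 else 0 := by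
  constructor
  · intro h i
    rw [← smul_e0, h]
    by_cases hi : i = 0
    · rw [hi]; simp
    · simp [hi]
  · intro h
    funext i
    rw [smul_e0, h]
    by_cases hi : i = 0
    · rw [hi]; simp
    · simp [hi]

/-- The pointwise stabiliser of two vectors is a Moore set. -/
theorem moore_fix (hm : 2 ≤ m) {g : GG k m} (hg : g • (y0 : YY k m) ≠ y0) :
    Moore {s : GG k m | s • (Pi.single 0 1 : Fin (m + 1) → k) = Pi.single 0 1 ∧
      s • (g • (Pi.single 0 1 : Fin (m + 1) → k)) = g • (Pi.single 0 1 : Fin (m + 1) → k)} := by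
  obtain ⟨e, he⟩ : ∃ e : Fin (m + 1) → k, e = Pi.single 0 1 := ⟨_, rfl⟩
  obtain ⟨w, hw⟩ : ∃ w : Fin (m + 1) → k, w = g • e := ⟨_, rfl⟩
  rw [← he, ← hw]
  have h1 : ∃ i, i ≠ 0 ∧ w i ≠ 0 := by
    by_contra hcon
    push Not at hcon
    apply hg
    rw [smul_y0_iff, Par.mem_Par]
    intro i hi
    rw [← smul_e0, ← he, ← hw]
    exact hcon i hi
  obtain ⟨i, hi, hwi⟩ := h1
  obtain ⟨j, hj, hji⟩ : ∃ j : Fin (m + 1), j ≠ 0 ∧ j ≠ i := by
    by_contra hcon
    push Not at hcon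
    have h2 := hcon ⟨1, by omega⟩ (by intro h; simpa using congrArg Fin.val h)
    have h3 := hcon ⟨2, by omega⟩ (by intro h; simpa using congrArg Fin.val h)
    have h4 := h2.trans h3.symm
    simpa using congrArg Fin.val h4
  obtain ⟨c, hc⟩ : ∃ c : k, c = - w j / w i := ⟨_, rfl⟩
  obtain ⟨u, hu⟩ : ∃ u : GG k m, u = H76.NI.tv j i c := ⟨_, rfl⟩
  have hroot : Moore (Set.range fun s : k => (H76.NI.tv 0 j s : GG k m)) := by
    intro F _ _ _ σ a1 a2 ξ hξ
    refine H103.mooreSet_root (k := k) (n := Fin (m + 1)) (i := 0) (j := j) hj.symm F σ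
      ⟨a1, fun ξ => ?_⟩ ξ ?_
    · have h5 := (a2 ξ).tendsto 1
      rwa [map_one] at h5
    rintro _ ⟨s, rfl⟩
    have h5 : σ (H76.NI.tv 0 j s : GG k m) ξ = ξ := hξ _ ⟨s, rfl⟩
    have h6 : (H76.NI.tv 0 j s : GG k m) = SpecialLinearGroup.transvection hj.symm s := by
      rw [H76.NI.tv, dif_pos hj.symm]
      rfl
    rw [h6] at h5
    exact h5
  refine moore_mono (moore_conj hroot u) ?_
  rintro s ⟨t, ht⟩
  have hs : s = u⁻¹ * H76.NI.tv 0 j t * u := by
    rw [show (H76.NI.tv 0 j t : GG k m) = u * s * u⁻¹ from ht]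
    group
  have hue : u • e = e := by
    funext l
    rw [hu, H76.NI.tv_smul hji, he]
    by_cases hl : l = j
    · rw [if_pos hl, hl]; simp [hi]
    · rw [if_neg hl]
  have hte : (H76.NI.tv 0 j t : GG k m) • e = e := by
    funext l
    rw [H76.NI.tv_smul hj.symm, he]
    by_cases hl : l = 0
    · rw [if_pos hl, hl]; simp [hj]
    · rw [if_neg hl]
  have huw : (u • w) j = 0 := by
    rw [hu, H76.NI.tv_smul hji, if_pos rfl, hc]
    field_simp
    ring
  have htw : (H76.NI.tv 0 j t : GG k m) • (u • w) = u • w := by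
    funext l
    rw [H76.NI.tv_smul hj.symm]
    by_cases hl : l = 0
    · rw [if_pos hl, hl, huw, mul_zero, add_zero]
    · rw [if_neg hl]
  constructor
  · rw [hs, mul_smul, mul_smul, hue, hte, inv_smul_eq_iff, hue]
  · rw [hs, mul_smul, mul_smul, htw, inv_smul_smul]

end conc

/-! ### The theorem -/

section final

open Matrix

variable {k : Type} [NontriviallyNormedField k] [ProperSpace k] [IsUltrametricDist k] {m : ℕ}
  {Γ K : Type} [Group Γ] [NormedAddCommGroup K] [InnerProductSpace ℂ K] [CompleteSpace K]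
  {π : GG k m →* (K →L[ℂ] K)} {lam : Γ →* (K →L[ℂ] K)} {W W' : Set (K →L[ℂ] K)} {Ω : K}
  {q : Γ →* GG k m} {E : Clopens (YY k m) → (K →L[ℂ] K)} {U : Subgroup (PG k m)}
  {a : PG k m → (K →L[ℂ] K)}

/-- **[C-KER]**, with the conclusion of [C-HSX] as a hypothesis. -/
theorem c_ker_of (hG : GeoStmt) (hm : 2 ≤ m) (hq : Emb q) (hP : PicX π lam W Ω)
    (hL : Lim π lam W q y0 E) (hX : Ext π lam W W' (y0 : YY k m) E)
    (hA : Hat π lam W' Ω q cc y0 E U a)
    (hsx : ∀ (g : GG k m), g • (y0 : YY k m) ≠ y0 → ∀ S : Set (GG k m), Moore S →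
      (∀ s ∈ S, s • (y0 : YY k m) = y0) → (∀ s ∈ S, (g⁻¹ * s * g) • (y0 : YY k m) = y0) →
      (∀ s ∈ S, ∀ h, π s * a h = a h * π s) →
      (∀ s ∈ S, ∀ h, π (g⁻¹ * s * g) * a h = a h * π (g⁻¹ * s * g)) →
      ∀ C, π g * E C * π g⁻¹ = E C)
    {p₀ : GG k m} (h0 : p₀ • (y0 : YY k m) = y0) (h1 : cc p₀ (y0 : YY k m) ≠ 1)
    (h2 : ∀ (U' : Subgroup (PG k m)) (b : PG k m → (K →L[ℂ] K)), COS U' →
      Res π lam W' q cc y0 E U' b →
      (∃ V : Subgroup (GG k m), IsOpen (V : Set (GG k m)) ∧ ∀ p ∈ V, p • (y0 : YY k m) = y0 →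
        ∀ h, π p * b h = b h * π p) → ∀ h, π p₀ * b h = b h * π p₀) : False := by
  have hGeo : Geo (cc : GG k m → YY k m → PG k m) y0 := hG k m (by omega)
  obtain ⟨N, hN⟩ : ∃ N : Subgroup (GG k m), N = kerN π lam W' q cc (y0 : YY k m) E := ⟨_, rfl⟩
  haveI : Nontrivial {i : Fin (m + 1) // i ≠ 0} := by
    refine ⟨⟨⟨⟨1, by omega⟩, ?_⟩, ⟨⟨2, by omega⟩, ?_⟩, ?_⟩⟩
    · intro h; simpa using congrArg Fin.val h
    · intro h; simpa using congrArg Fin.val h
    · intro h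
      simpa using congrArg Fin.val (congrArg Subtype.val h)
  haveI : Infinite k := NontriviallyNormedField.infinite k
  have hp₀ : p₀ ∈ N := by
    rw [hN, mem_kerN]
    refine ⟨h0, fun b hb => ?_⟩
    obtain ⟨U', hU', hR, hV⟩ := hb
    exact h2 U' b hU' hR hV
  have hfix : ∀ s : GG k m, s • (Pi.single 0 1 : Fin (m + 1) → k) = Pi.single 0 1 → s ∈ N := by
    intro s hs
    refine Par.fix_mem 0 (N := N) (fun p hp g hg => ?_) (fun g hg hc => ?_) hp₀
      ((smul_y0_iff p₀).1 h0) ?_ ((fix_e0_iff s).1 hs)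
    · rw [hN] at hg ⊢
      exact kerN_conj hGeo hP hL hX ((smul_y0_iff p).2 hp) hg
    · obtain ⟨c, hc⟩ := hc
      rw [hN]
      exact rad_mem ((smul_y0_iff g).2 hg) (cc_eq_one hg hc)
    · rintro ⟨c, hc⟩
      exact h1 (cc_eq_one ((smul_y0_iff p₀).1 h0) hc)
  have ha : SRes π lam W' q cc (y0 : YY k m) E a := ⟨U, hA.cos, hA.res, hA.smooth⟩
  have hcomm : ∀ (g : GG k m) C, E C * π g = π g * E C := by
    intro g C
    by_cases hg : g • (y0 : YY k m) = y0
    · exact (hL.par g hg C).symm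
    · have h3 := hsx g hg _ (moore_fix hm hg) ?_ ?_ ?_ ?_ C
      · calc E C * π g = π g * E C * π g⁻¹ * π g := by rw [h3]
          _ = π g * E C := by rw [mul_assoc, inv_pi, mul_one]
      · rintro s ⟨hs, -⟩
        have := hfix s hs
        rw [hN] at this
        exact this.1
      · rintro s ⟨-, hs⟩
        have h4 : (g⁻¹ * s * g) • (Pi.single 0 1 : Fin (m + 1) → k) = Pi.single 0 1 := by
          rw [mul_smul, mul_smul, hs, inv_smul_smul]
        have := hfix _ h4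
        rw [hN] at this
        exact this.1
      · rintro s ⟨hs, -⟩ h
        have := hfix s hs
        rw [hN] at this
        exact this.2 a ha h
      · rintro s ⟨-, hs⟩ h
        have h4 : (g⁻¹ * s * g) • (Pi.single 0 1 : Fin (m + 1) → k) = Pi.single 0 1 := by
          rw [mul_smul, mul_smul, hs, inv_smul_smul]
        have := hfix _ h4
        rw [hN] at this
        exact this.2 a ha h
  have hE := hL.cpv
  obtain ⟨Ωn, hnn, hin⟩ := hP.inv
  have hn : ∀ C, (⟪Ωn, E C Ωn⟫_ℂ).re = ‖E C Ωn‖ ^ 2 := by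
    intro C
    have h3 : ⟪Ωn, E C Ωn⟫_ℂ = ⟪E C Ωn, E C Ωn⟫_ℂ := by
      conv_lhs => rw [← hE.idem C]
      change ⟪Ωn, E C (E C Ωn)⟫_ℂ = _
      rw [← adjoint_inner_left, ← star_eq_adjoint, hE.sa]
    rw [h3, inner_self_eq_norm_sq_to_K]
    norm_cast
  have h01 : (0 : Fin (m + 1)) ≠ ⟨1, by omega⟩ := by
    intro h; simpa using congrArg Fin.val h
  refine H76.NI.no_inv_clopens h01 q.range hq.lat.covol (fun C => (⟪Ωn, E C Ωn⟫_ℂ).re)
    (fun C => ?_) (fun C D hd => ?_) ?_ ?_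
  · change 0 ≤ (⟪Ωn, E C Ωn⟫_ℂ).re
    rw [hn]; positivity
  · change (⟪Ωn, E (C ⊔ D) Ωn⟫_ℂ).re = _
    rw [hE.add hd, ContinuousLinearMap.add_apply, inner_add_right, Complex.add_re]
  · change (⟪Ωn, E ⊤ Ωn⟫_ℂ).re = 1
    rw [hn, hE.top, ContinuousLinearMap.one_apply, hnn, one_pow]
  · rintro _ ⟨γ, rfl⟩ C D hCD
    change (⟪Ωn, E D Ωn⟫_ℂ).re = (⟪Ωn, E C Ωn⟫_ℂ).re
    have h3 : D = sm (q γ) C := by
      apply SetLike.coe_injective
      rw [hCD]
      ext y
      rw [Set.mem_smul_set_iff_inv_smul_mem]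
      rfl
    rw [h3, ← hL.cov γ C, hin (E C) (hL.cm C) (fun g => hcomm g C) γ]

/-- **[C-KER]** No element of the stabiliser outside the radical acts trivially on the smooth
part of the residue algebra. -/
theorem c_ker (hG : GeoStmt) (hm : 2 ≤ m) (hq : Emb q) (hP : PicX π lam W Ω)
    (hL : Lim π lam W q y0 E) (hX : Ext π lam W W' (y0 : YY k m) E)
    (hA : Hat π lam W' Ω q cc y0 E U a)
    {p₀ : GG k m} (h0 : p₀ • (y0 : YY k m) = y0) (h1 : cc p₀ (y0 : YY k m) ≠ 1)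
    (h2 : ∀ (U' : Subgroup (PG k m)) (b : PG k m → (K →L[ℂ] K)), COS U' →
      Res π lam W' q cc y0 E U' b →
      (∃ V : Subgroup (GG k m), IsOpen (V : Set (GG k m)) ∧ ∀ p ∈ V, p • (y0 : YY k m) = y0 →
        ∀ h, π p * b h = b h * π p) → ∀ h, π p₀ * b h = b h * π p₀) : False :=
  c_ker_of hG hm hq hP hL hX hA
    (fun _ hg _ hS hS0 hSg h3 h4 C =>
      H45.hsx_ext (hG k m (by omega)) hP hL hX hA hS h3 hg hS0 hSg h4 C) h0 h1 h2

end final

end Vale.Agent.P092.TX.H828.CKer
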